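import Mathlib

namespace Vale.Agent.Lib.P012.H91

/-- `64 n^2 ≤ 2^n` from `n = 14` on. -/
theorem sixtyfour_sq_le_two_pow (n : ℕ) (hn : 14 ≤ n) : 64 * n ^ 2 ≤ 2 ^ n := by
  induction n, hn using Nat.le_induction with
  | base => norm_num
  | succ n hn ih =>
    have h1 : 2 ^ (n + 1) = 2 * 2 ^ n := by ring
    have h2 : 2 * n + 1 ≤ n ^ 2 := by nlinarith
    rw [h1]
    nlinarith [ih, h2]

/-- The increment of Chebyshev's `θ` over `(2^m, 2^(m+3)]` is at most the number of primes there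
times `log (2^(m+3))`. -/
theorem theta_diff_le (m : ℕ) :
    Chebyshev.theta ((2 ^ (m + 3) : ℕ) : ℝ) - Chebyshev.theta ((2 ^ m : ℕ) : ℝ) ≤
      (((Finset.Ioc (2 ^ m) (2 ^ (m + 3))).filter Nat.Prime).card : ℝ) *
        (((m : ℝ) + 3) * Real.log 2) := by
  rw [Chebyshev.theta_eq_sum_primesLE_log, Chebyshev.theta_eq_sum_primesLE_log]
  have hpow : 2 ^ m ≤ 2 ^ (m + 3) := Nat.pow_le_pow_right (by norm_num) (by omega)
  have hsplit : Nat.primesLE (2 ^ (m + 3)) =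
      Nat.primesLE (2 ^ m) ∪ (Finset.Ioc (2 ^ m) (2 ^ (m + 3))).filter Nat.Prime := by
    ext p
    simp only [Nat.mem_primesLE, Finset.mem_union, Finset.mem_filter, Finset.mem_Ioc]
    constructor
    · rintro ⟨h1, h2⟩
      by_cases h : p ≤ 2 ^ m
      · exact Or.inl ⟨h, h2⟩
      · exact Or.inr ⟨⟨by omega, h1⟩, h2⟩
    · rintro (⟨h1, h2⟩ | ⟨⟨h1, h2⟩, h3⟩)
      · exact ⟨by omega, h2⟩
      · exact ⟨h2, h3⟩
  have hdisj : Disjoint (Nat.primesLE (2 ^ m))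
      ((Finset.Ioc (2 ^ m) (2 ^ (m + 3))).filter Nat.Prime) := by
    rw [Finset.disjoint_left]
    intro p hp hp'
    simp only [Nat.mem_primesLE, Finset.mem_filter, Finset.mem_Ioc] at hp hp'
    omega
  rw [hsplit, Finset.sum_union hdisj, add_sub_cancel_left]
  calc ∑ p ∈ (Finset.Ioc (2 ^ m) (2 ^ (m + 3))).filter Nat.Prime, Real.log p
      ≤ ∑ _p ∈ (Finset.Ioc (2 ^ m) (2 ^ (m + 3))).filter Nat.Prime,
          (((m : ℝ) + 3) * Real.log 2) := by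
        apply Finset.sum_le_sum
        intro p hp
        simp only [Finset.mem_filter, Finset.mem_Ioc] at hp
        have hp0 : (0 : ℝ) < p := by exact_mod_cast hp.2.pos
        have hle : (p : ℝ) ≤ (2 : ℝ) ^ (m + 3) := by exact_mod_cast hp.1.2
        calc Real.log p ≤ Real.log ((2 : ℝ) ^ (m + 3)) := Real.log_le_log hp0 hle
          _ = ((m : ℝ) + 3) * Real.log 2 := by rw [Real.log_pow]; push_cast; ring
    _ = _ := by rw [Finset.sum_const, nsmul_eq_mul]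

/-- BLOCK P: prime supply in `(2^m, 2^(m+3)]`. -/
theorem prime_supply : ∃ m₀ : ℕ, ∀ m : ℕ, m₀ ≤ m →
    2 ^ m ≤ (m + 1) * ((Finset.Ioc (2 ^ m) (2 ^ (m + 3))).filter Nat.Prime).card := by
  refine ⟨11, fun m hm => ?_⟩
  obtain ⟨C, hC⟩ : ∃ C : ℕ,
      C = ((Finset.Ioc (2 ^ m) (2 ^ (m + 3))).filter Nat.Prime).card := ⟨_, rfl⟩
  rw [← hC]
  have hdiff := theta_diff_le m
  rw [← hC] at hdiff
  have hL : 0 < Real.log 2 := Real.log_pos (by norm_num)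
  have hge := Chebyshev.theta_ge (2 ^ (m + 3))
  have hle := Chebyshev.theta_le_log4_mul_x (x := ((2 ^ m : ℕ) : ℝ)) (by positivity)
  have hlog4 : Real.log 4 = 2 * Real.log 2 := by
    rw [show (4 : ℝ) = 2 ^ 2 by norm_num, Real.log_pow]; push_cast; ring
  obtain ⟨X, hX⟩ : ∃ X : ℝ, X = (2 : ℝ) ^ m := ⟨_, rfl⟩
  have hXpos : 0 < X := by rw [hX]; positivity
  have hX1 : 1 ≤ X := by rw [hX]; exact one_le_pow₀ (by norm_num)
  have hcastN : ((2 ^ (m + 3) : ℕ) : ℝ) = 8 * X := by rw [hX]; push_cast; ring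
  have hcastX : ((2 ^ m : ℕ) : ℝ) = X := by rw [hX]; push_cast; ring
  rw [hcastN] at hge hdiff
  rw [hcastX] at hle hdiff
  have hlogN : Real.log (8 * X) = ((m : ℝ) + 3) * Real.log 2 := by
    rw [hX, show (8 : ℝ) * 2 ^ m = 2 ^ (m + 3) by ring, Real.log_pow]; push_cast; ring
  have hlogN1 : Real.log (8 * X + 1) ≤ ((m : ℝ) + 4) * Real.log 2 := by
    have h16 : 8 * X + 1 ≤ (2 : ℝ) ^ (m + 4) := by
      rw [show (2 : ℝ) ^ (m + 4) = 16 * 2 ^ m by ring, ← hX]; linarith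
    calc Real.log (8 * X + 1) ≤ Real.log ((2 : ℝ) ^ (m + 4)) :=
          Real.log_le_log (by positivity) h16
      _ = ((m : ℝ) + 4) * Real.log 2 := by rw [Real.log_pow]; push_cast; ring
  have hA := sixtyfour_sq_le_two_pow (m + 3) (by omega)
  have hAr : (8 * ((m : ℝ) + 3)) ^ 2 ≤ 8 * X := by
    have h := (Nat.cast_le (α := ℝ)).mpr hA
    rw [hcastN] at h
    push_cast at h
    nlinarith
  have hsqrt : 8 * ((m : ℝ) + 3) ≤ √(8 * X) := Real.le_sqrt_of_sq_le hAr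
  have hsq : √(8 * X) * √(8 * X) = 8 * X := Real.mul_self_sqrt (by positivity)
  have hterm : 2 * √(8 * X) * (((m : ℝ) + 3) * Real.log 2) ≤ 2 * X * Real.log 2 := by
    have h1 : √(8 * X) * (8 * ((m : ℝ) + 3)) ≤ 8 * X := by
      calc √(8 * X) * (8 * ((m : ℝ) + 3)) ≤ √(8 * X) * √(8 * X) :=
            mul_le_mul_of_nonneg_left hsqrt (Real.sqrt_nonneg _)
        _ = 8 * X := hsq
    have h2 : √(8 * X) * (8 * ((m : ℝ) + 3)) * Real.log 2 ≤ 8 * X * Real.log 2 :=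
      mul_le_mul_of_nonneg_right h1 hL.le
    linarith
  rw [hlogN] at hge
  rw [hlog4] at hle
  have hmain : (4 * X - ((m : ℝ) + 4)) * Real.log 2 ≤
      ((C : ℝ) * ((m : ℝ) + 3)) * Real.log 2 := by
    linarith
  have hmain' : 4 * X - ((m : ℝ) + 4) ≤ (C : ℝ) * ((m : ℝ) + 3) :=
    le_of_mul_le_mul_right hmain hL
  have hm0 : (0 : ℝ) ≤ (m : ℝ) := Nat.cast_nonneg m
  have hXm : (m : ℝ) + 4 ≤ X := by nlinarith
  have hfin : X * ((m : ℝ) + 3) ≤ (((m : ℝ) + 1) * C) * ((m : ℝ) + 3) := by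
    have h3 : ((m : ℝ) + 1) * (4 * X - ((m : ℝ) + 4)) ≤ ((m : ℝ) + 1) * ((C : ℝ) * ((m : ℝ) + 3)) :=
      mul_le_mul_of_nonneg_left hmain' (by linarith)
    nlinarith
  have hfin' : X ≤ ((m : ℝ) + 1) * C := le_of_mul_le_mul_right hfin (by linarith)
  have hgoal : ((2 ^ m : ℕ) : ℝ) ≤ (((m + 1) * C : ℕ) : ℝ) := by
    rw [hcastX]; push_cast; exact hfin'
  exact_mod_cast hgoal

end Vale.Agent.Lib.P012.H91
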